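import Vale.Agent.P146.Defs
import Vale.Agent.P146.H605.Defs
import Vale.Agent.P146.H260.Dev3
import Vale.Agent.P146.X7.H737_HF

/-!
# P146: exponential moments and right tail of the Sherrington-Kirkpatrick free energy at all scales

Below the critical temperature, for every `ε > 0` and all large `n`:
* `E exp (x (F_n - E F_n)) ≤ exp (n ^ (1 + ε) x ^ 6)` for all `n ^ (-1/6) ≤ x ≤ 1`;
* `P(F_n ≥ E F_n + n s) ≤ exp (- n ^ (1 - ε) s ^ (6/5))` for all `n ^ (-5/6 + ε) ≤ s ≤ 1`.
-/

open MeasureTheory ProbabilityTheory Filter Topology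

namespace Vale.Agent.Results.P146.RightTail

open Vale.Agent.P146 Vale.Agent.P146.H605

theorem result : ∀ β : ℝ, 1 < β → ∀ ε : ℝ, 0 < ε → ∀ᶠ n : ℕ in atTop,
    -- the exponential moments above the mean
    (∀ x : ℝ, (n : ℝ) ^ (-(1 / 6) : ℝ) ≤ x → x ≤ 1 →
      Integrable (fun g => Real.exp (x * (freeEnergy n β g -
        ∫ h, freeEnergy n β h ∂(disorder n)))) (disorder n) ∧
      ∫ g, Real.exp (x * (freeEnergy n β g - ∫ h, freeEnergy n β h ∂(disorder n)))
        ∂(disorder n) ≤ Real.exp ((n : ℝ) ^ (1 + ε) * x ^ 6)) ∧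
    -- the right tail
    (∀ s : ℝ, (n : ℝ) ^ (-(5 / 6) + ε : ℝ) ≤ s → s ≤ 1 →
      (disorder n).real {g | ∫ h, freeEnergy n β h ∂(disorder n) + n * s ≤ freeEnergy n β g} ≤
        Real.exp (-((n : ℝ) ^ (1 - ε) * s ^ (6 / 5 : ℝ)))) := by
  intro β hβ ε hε
  have h : H695.UpM β (1 / 16) := X7.H737.upM (by linarith) (by norm_num)
  filter_upwards [H260.Dev.moments_up hβ (by norm_num) (by norm_num) h ε hε,
    H260.Dev.right_tail_up hβ (by norm_num) (by norm_num) h ε hε] with n h1 h2
  refine ⟨fun x hx hx1 => ?_, h2⟩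
  have hi : Integrable (fun g => Real.exp (x * (freeEnergy n β g -
      ∫ h, freeEnergy n β h ∂(disorder n)))) (disorder n) := by
    have e : (fun g => Real.exp (x * (freeEnergy n β g - ∫ h, freeEnergy n β h ∂(disorder n)))) =
        fun g => Real.exp (x * freeEnergy n β g) *
          Real.exp (-(x * ∫ h, freeEnergy n β h ∂(disorder n))) := by
      funext g
      rw [← Real.exp_add]
      congr 1
      ring
    rw [e]
    exact (H260.V13.int_exp_sk n β x).mul_const _
  refine ⟨hi, ?_⟩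
  have hp : IsProbabilityMeasure (disorder n) := by
    unfold disorder
    infer_instance
  rw [← Real.exp_log (integral_exp_pos hi)]
  exact Real.exp_le_exp.2 (h1 x hx hx1)

end Vale.Agent.Results.P146.RightTail
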