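import Vale.Agent.P146.Defs
import Vale.Agent.P146.H605.Defs
import Vale.Agent.P146.H499.Bd17
import Vale.Agent.P146.H260.Dblc17

/-!
# P146: the doubling inequality for the exponential moments of the Sherrington-Kirkpatrick free
energy, the sharp moment law and upper tail for `x ≥ n ^ (-a)`, `a < 2 / 17`, and the finite-size
correction of the mean, `n p - E F_n ≤ D n ^ (7 / 17) (1 + log n) ^ 2`
-/

open MeasureTheory ProbabilityTheory Filter Topology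

namespace Vale.Agent.Results.P146.VarianceBounds2

open Vale.Agent.P146 Vale.Agent.P146.H605

theorem result :
    (∃ Λ : ℝ → ℝ, Tendsto Λ (𝓝[>] 1) (𝓝 (9 / 5120)) ∧
      ∀ β : ℝ, 1 < β → 0 < Λ β ∧ ∃ p D : ℝ,
      Tendsto (fun n : ℕ => (∫ g, freeEnergy n β g ∂(disorder n)) / n) atTop (𝓝 p) ∧
      -- the sharp moment law and the sharp upper tail
      (∀ ε : ℝ, 0 < ε → ∀ a : ℝ, a < 2 / 17 → ∃ δ : ℝ, 0 < δ ∧ ∀ᶠ n : ℕ in atTop,
        (∀ x : ℝ, (n : ℝ) ^ (-a) ≤ x → x ≤ δ →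
          |Real.log (∫ g, Real.exp (x * (freeEnergy n β g - n * p)) ∂(disorder n)) -
            Λ β * n * x ^ 6| ≤ ε * n * x ^ 6) ∧
        (∀ s : ℝ, (n : ℝ) ^ (-(5 * a)) ≤ s → s ≤ δ →
          |Real.log ((disorder n).real {g | n * (p + s) ≤ freeEnergy n β g}) +
            5 / 6 * (6 * Λ β) ^ (-(1 / 5) : ℝ) * n * s ^ (6 / 5 : ℝ)| ≤
              ε * n * s ^ (6 / 5 : ℝ))) ∧
      (∀ n : ℕ, 1 ≤ n →
        -- the finite-size correction of the mean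
        0 ≤ n * p - ∫ g, freeEnergy n β g ∂(disorder n) ∧
        n * p - ∫ g, freeEnergy n β g ∂(disorder n) ≤
          D * (n : ℝ) ^ (7 / 17 : ℝ) * (1 + Real.log n) ^ 2 ∧
        -- one small exponential moment
        (∀ r : ℝ, 0 < r → r ≤ 1 → 1 ≤ r ^ 6 * n →
          n * p - 1 / r * Real.log (∫ g, Real.exp (r * freeEnergy n β g) ∂(disorder n)) ≤
            D * (1 + Real.log n) * ((n : ℝ) ^ (1 / 3 : ℝ) * r ^ (-(2 / 3) : ℝ))) ∧
        -- the overlap near equal disorders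
        (∀ t : ℝ, 0 ≤ t → t ≤ 1 →
          (1 - 1 / β) ^ 2 - D * (n : ℝ) ^ (-(5 / 17) : ℝ) * (1 + Real.log n) -
            (1 - t) * (β ^ 2 * n / 2) ≤ crossOverlap n β t))) ∧
    -- the doubling inequality, at every temperature
    (∀ β : ℝ, ∃ C : ℝ, ∀ n : ℕ, 1 ≤ n → ∀ x : ℝ, 0 < x → x ≤ 1 →
      Real.log (∫ g, Real.exp (x * freeEnergy (2 * n) β g) ∂(disorder (2 * n))) ≤
        2 * Real.log (∫ g, Real.exp (x * freeEnergy n β g) ∂(disorder n)) +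
          C * ((1 + (x * n) ^ (1 / 3 : ℝ)) * (1 + Real.log n))) := by
  refine ⟨?_, fun β => ?_⟩
  · obtain ⟨Λ, hΛ, hβ⟩ := H499.T29.bounds17 fun β _ => H260.D17.dblc17 β
    refine ⟨Λ, hΛ, fun β h1 => ?_⟩
    obtain ⟨h0, p, D, h2, h3, h4⟩ := hβ β h1
    refine ⟨h0, p, D, h2, h3, fun n hn => ?_⟩
    obtain ⟨g1, g2, g3, -, g5⟩ := h4 n hn
    exact ⟨g1, g2, g3, g5⟩
  · obtain ⟨C, -, h⟩ := H329.dbl17 β
    exact ⟨C, h⟩

end Vale.Agent.Results.P146.VarianceBounds2
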