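import Vale.Agent.P146.Defs
import Vale.Agent.P146.H605.Defs
import Vale.Agent.P146.H695.Top
import Vale.Agent.P146.H695.Sub2

/-!
# P146: lower bounds for the fluctuations of the Sherrington-Kirkpatrick free energy, and the
shape of their limit laws

Below the critical temperature:
* `Var F_n ≥ n ^ γ` for large `n`, for every `γ < 4 / 17`, with disorder chaos
  `n (1 - t) R(t) ≥ n ^ γ` for a `t`;
* small balls `P(|F_n - y| ≤ n ^ κ) ≤ n ^ (-c)` for `κ + c < 2 / 17`;
* every sequence of sizes has a subsequence along which `(F_n - E F_n) / √Var F_n` converges in law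
  to a law with mean `0`, variance `1` and a log-concave density.

At every temperature and for every `n`, with `s = 1 + √Var F_n`:
* `P(|F_n - y| ≤ u) ≤ 2610 (u + 1) / s` for all `y`, `u`;
* `E exp (x |F_n - E F_n|) ≤ 7` for `0 ≤ 18 s x ≤ 1`;
* `y ↦ E exp (F_n - y - exp (F_n - y))`, the density of `F_n` plus an independent Gumbel variable,
  is log-concave.
-/

open MeasureTheory ProbabilityTheory Filter Topology

namespace Vale.Agent.Results.P146.VarianceLower

open Vale.Agent.P146 Vale.Agent.P146.H605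

theorem result :
    (∀ β : ℝ, 1 < β →
      -- lower bounds for the variance and the chaos profile
      (∀ γ : ℝ, γ < 4 / 17 → ∀ᶠ n : ℕ in atTop,
        (n : ℝ) ^ γ ≤ Var[freeEnergy n β; disorder n] ∧
        ∃ t : ℝ, 0 ≤ t ∧ t < 1 ∧ (n : ℝ) ^ γ ≤ n * (1 - t) * crossOverlap n β t) ∧
      -- small balls
      (∀ κ c : ℝ, 0 ≤ κ → κ + c < 2 / 17 → ∀ᶠ n : ℕ in atTop, ∀ y : ℝ,
        (disorder n).real {g | |freeEnergy n β g - y| ≤ (n : ℝ) ^ κ} ≤ (n : ℝ) ^ (-c)) ∧
      -- the limit laws have a log-concave density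
      (∀ N : ℕ → ℕ, Tendsto N atTop atTop → ∃ (φ : ℕ → ℕ) (p : ℝ → ℝ), StrictMono φ ∧
        (∀ x, 0 ≤ p x ∧ p x ≤ 145) ∧
        (∀ s t : ℝ, 0 < s → 0 < t → s + t = 1 → ∀ x y : ℝ,
          p x ^ s * p y ^ t ≤ p (s * x + t * y)) ∧
        ∫ x, p x = 1 ∧ ∫ x, x * p x = 0 ∧ ∫ x, x ^ 2 * p x = 1 ∧
        ∀ f : ℝ → ℝ, Continuous f → (∃ C, ∀ x, |f x| ≤ C) →
          Tendsto (fun k => ∫ g, f ((freeEnergy (N (φ k)) β g -
            ∫ h, freeEnergy (N (φ k)) β h ∂(disorder (N (φ k)))) /
              √Var[freeEnergy (N (φ k)) β; disorder (N (φ k))]) ∂(disorder (N (φ k))))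
            atTop (𝓝 (∫ x, f x * p x)))) ∧
    (∀ (n : ℕ) (β : ℝ),
      -- anticoncentration at the scale of the standard deviation
      (∀ y u : ℝ, 0 ≤ u → (disorder n).real {g | |freeEnergy n β g - y| ≤ u} ≤
        2610 * (u + 1) / (1 + √Var[freeEnergy n β; disorder n])) ∧
      -- two-sided exponential moment at the scale of the standard deviation
      (∀ x : ℝ, 0 ≤ x → x * (18 * (1 + √Var[freeEnergy n β; disorder n])) ≤ 1 →
        Integrable (fun g => Real.exp (x * |freeEnergy n β g -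
          ∫ h, freeEnergy n β h ∂(disorder n)|)) (disorder n) ∧
        ∫ g, Real.exp (x * |freeEnergy n β g - ∫ h, freeEnergy n β h ∂(disorder n)|)
          ∂(disorder n) ≤ 7) ∧
      -- the free energy plus a Gumbel variable has a log-concave density
      ConcaveOn ℝ Set.univ (fun y => Real.log (∫ g, Real.exp (freeEnergy n β g - y -
        Real.exp (freeEnergy n β g - y)) ∂(disorder n)))) := by
  have hV : ∀ β : ℝ, 1 < β → H695.LowV β (4 / 17) := fun β hβ => H695.Sub.lowV17 hβ
  refine ⟨fun β hβ => ⟨fun γ hγ => ?_, fun κ c hκ0 hκ => ?_, fun N hN => H695.limit_low hβ hN⟩,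
    fun n β => ⟨fun y u hu => H655.anticoncentration n β y hu,
      fun x hx hx1 => H695.exp_abs n β hx hx1, H863.p_logconc n β⟩⟩
  · filter_upwards [hV β hβ γ hγ, H695.chaos_gen (by norm_num) (hV β hβ) hγ] with n h1 h2
    exact ⟨h1, h2⟩
  · exact H695.small_gen (hV β hβ) hκ0 (by linarith)

end Vale.Agent.Results.P146.VarianceLower
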