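import Vale.Agent.P146.Defs
import Vale.Agent.P146.H605.Defs
import Vale.Agent.P146.H95.Top

/-!
# P146: the fluctuations of the Sherrington-Kirkpatrick free energy are at most `n ^ (1 / 6 + d)`
at every temperature below the critical one

For every `d > 0` there is a constant `D` such that for all `n ≥ 1`:
* `Var F_n ≤ D n ^ (1 / 3 + d)`;
* `E exp (x (F_n - E F_n)) ≤ exp (D n ^ (1 / 3 + d) x ^ 2)` for all real `x ≤ n ^ (-1 / 6) / 2`;
* `P(|F_n - E F_n| ≥ u n ^ (1 / 6 + d)) ≤ D e ^ (-u)`, and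
  `P(F_n ≤ E F_n - u n ^ (1 / 6 + d)) ≤ exp (-u ^ 2 / D)`, for all `u ≥ 0`;
* the mean square overlap `R(t)` of two disorders of correlation `t` satisfies
  `(1 - t) (β ^ 2 / 2) (n R(t) - 1) ≤ D n ^ (1 / 3 + d)` and `R(t) ≤ D n ^ (-2 / 3 + d) / (1 - t)`.
-/

open MeasureTheory ProbabilityTheory

namespace Vale.Agent.Results.P146.VarianceThird

open Vale.Agent.P146 Vale.Agent.P146.H605

theorem result (β : ℝ) (hβ : 1 < β) (d : ℝ) (hd : 0 < d) :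
    ∃ D : ℝ, 0 < D ∧ ∀ n : ℕ, 1 ≤ n →
      -- the variance
      Var[freeEnergy n β; disorder n] ≤ D * (n : ℝ) ^ (1 / 3 + d) ∧
      -- the Laplace transform, for all real `x ≤ n ^ (-1 / 6) / 2`
      (∀ x : ℝ, x ≤ (n : ℝ) ^ (-(1 / 6) : ℝ) / 2 →
        ∫ g, Real.exp (x * (freeEnergy n β g - ∫ h, freeEnergy n β h ∂(disorder n)))
          ∂(disorder n) ≤ Real.exp (D * (n : ℝ) ^ (1 / 3 + d) * x ^ 2)) ∧
      -- the tails
      (∀ u : ℝ, 0 ≤ u → (disorder n).real {g | u * (n : ℝ) ^ (1 / 6 + d) ≤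
        |freeEnergy n β g - ∫ h, freeEnergy n β h ∂(disorder n)|} ≤ D * Real.exp (-u)) ∧
      (∀ u : ℝ, 0 ≤ u → (disorder n).real {g | freeEnergy n β g ≤
        ∫ h, freeEnergy n β h ∂(disorder n) - u * (n : ℝ) ^ (1 / 6 + d)} ≤
          Real.exp (-(u ^ 2 / D))) ∧
      -- chaos
      (∀ t : ℝ, 0 ≤ t → t < 1 →
        (1 - t) * (β ^ 2 / 2 * (n * crossOverlap n β t - 1)) ≤ D * (n : ℝ) ^ (1 / 3 + d) ∧
        crossOverlap n β t ≤ D * (n : ℝ) ^ (-(2 / 3) + d) / (1 - t)) := by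
  have hβ0 : 0 < β := by linarith
  obtain ⟨D, hD, h⟩ := H95.fluct hβ0 d hd
  refine ⟨D, by linarith, fun n hn => ?_⟩
  obtain ⟨h3, h4, h5, h6, h7, h8⟩ := h n hn
  exact ⟨h3, fun x hx => h4 x (by linarith), h5, h6, fun t ht0 ht1 => ⟨h7 t ht0 ht1, h8 t ht0 ht1⟩⟩

end Vale.Agent.Results.P146.VarianceThird
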